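import Vale.Agent.P287Q.G.Pt.Rep

/-!
# Points of the moduli spaces and selectors
-/

set_option linter.unusedSectionVars false

namespace Vale.Agent.P269

open Set Function Topology Filter Cv

variable {S Λ R J K ν κ ι : Type} [Fintype S] [Fintype Λ] [Fintype R] [Fintype J] [Fintype K]
  [Fintype ν] [Fintype κ] [Fintype ι] [DecidableEq ι]

/-- The property is invariant under isomorphisms. -/
def AM.Ivt (W : Wt S Λ R J) (P : AM Λ R J ν κ → Prop) : Prop :=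
  ∀ m m', AM.Iso W univ m m' → P m → P m'

namespace Ch

variable {ch : Ch ι J} {W : Wt S Λ R J} {F : Fam S Λ R J K} {ℓ : R → ι → ℤ}
  {Z : Set (ch.WF ν κ Λ)} {x x' : Z} {m m' : AM Λ R J ν κ} {P P' : AM Λ R J ν κ → Prop}

theorem mk_eq_iff : Quo.mk (actF W) x = Quo.mk (actF W) x' ↔ ∃ a, IsUnit a ∧ x'.1 = actF W a x.1 :=
  ⟨fun h => let ⟨g, e⟩ := (Holo.Sp.mk_eq_iff (act := actF W) (S := univ) (x := ⟨x.1, trivial⟩)
      (y := ⟨x'.1, trivial⟩)).1 (congrArg (Quo.incl _ (subset_univ Z)) h)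
    ⟨g, g.isUnit, (congrArg Holo.Sp.val e).symm⟩, fun h => Quot.sound h⟩

theorem exists_out (x : Z) : ∃ a, IsUnit a ∧ (Quo.out (Quo.mk (actF W) x)).1 = actF W a x.1 :=
  mk_eq_iff.1 (Quot.out_eq _).symm

/-- **the points of the moduli space are the isomorphism classes** -/
theorem mk_eq_iff_iso (hl : ch.Lat W ℓ) (hc : ∀ l, ch.a l ≠ 0) (ht : ch.Tight)
    (hZ : ∀ x ∈ Z, x.2 ∈ ch.base _) (h : Rep ℓ univ x.1 m) (h' : Rep ℓ univ x'.1 m') :
    Quo.mk (actF W) x = Quo.mk (actF W) x' ↔ AM.Iso W univ m m' :=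
  mk_eq_iff.trans (h.iso_iff (hZ _ x.2) hl hc ht h' (hZ _ x'.2)).symm

variable (W ℓ Z P) in
/-- The part of a quotient selected by a property of abstract maps. -/
def selQ : Set (Quo (actF W) Z) := {y | ∃ m, Rep ℓ univ (Quo.out y).1 m ∧ P m}

theorem mem_selQ (hw : ∀ j i, ch.wd j i = ∑ r, W.w j r * ℓ r i) (hZ : ∀ x ∈ Z, x.2 ∈ ch.base _)
    (hP : AM.Ivt W P) (h : Rep ℓ univ x.1 m) : Quo.mk (actF W) x ∈ selQ W ℓ Z P ↔ P m := by
  obtain ⟨a, ha, e⟩ := exists_out (W := W) x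
  have b := h.actF (W := W) (hZ _ x.2) ha
  rw [← e] at b
  exact ⟨fun ⟨_, c, d⟩ => hP _ _ ((c.iso (hZ _ (Quo.out _).2) hw b).trans
    (AM.iso_scl (isUnit_S ha)).symm) d, fun d => ⟨_, b, hP _ _ (AM.iso_scl (isUnit_S ha)) d⟩⟩

variable (hl : ch.Lat W ℓ) (hZ : Z ⊆ ch.solF ν κ F)
include hl hZ

theorem exists_mk (y : Quo (actF W) Z) : ∃ x m, y = Quo.mk (actF W) x ∧ Rep ℓ univ x.1 m :=
  let ⟨m, h⟩ := hl.exists_rep_sol (hZ y.out.2); ⟨_, m, (Quot.out_eq y).symm, h⟩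

theorem selQ_ext (hP : AM.Ivt W P) {U : Set (Quo (actF W) Z)}
    (h : ∀ x m, Rep ℓ univ x.1 m → (Quo.mk (actF W) x ∈ U ↔ P m)) : selQ W ℓ Z P = U :=
  Set.ext fun y => by
    obtain ⟨x, m, rfl, a⟩ := exists_mk hl hZ y
    rw [mem_selQ hl.wd (fun _ b => (hZ b).1.2.1) hP a, h x m a]

theorem selQ_congr (hP : AM.Ivt W P) (hP' : AM.Ivt W P')
    (h : ∀ x ∈ Z, ∀ m, Rep ℓ univ x m → (P m ↔ P' m)) : selQ W ℓ Z P = selQ W ℓ Z P' :=
  selQ_ext hl hZ hP fun x m a => by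
    rw [mem_selQ hl.wd (fun _ b => (hZ b).1.2.1) hP' a, h _ x.2 m a]

theorem selQ_true : selQ W ℓ Z (fun _ => True) = univ :=
  selQ_ext hl hZ (fun _ _ _ => id) fun _ _ _ => Iff.rfl

theorem selQ_and (hP : AM.Ivt W P) (hP' : AM.Ivt W P') :
    selQ W ℓ Z (fun m => P m ∧ P' m) = selQ W ℓ Z P ∩ selQ W ℓ Z P' :=
  selQ_ext hl hZ (fun _ _ e a => ⟨hP _ _ e a.1, hP' _ _ e a.2⟩) fun _ _ a =>
    and_congr (mem_selQ hl.wd (fun _ b => (hZ b).1.2.1) hP a)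
      (mem_selQ hl.wd (fun _ b => (hZ b).1.2.1) hP' a)

theorem selQ_not (hP : AM.Ivt W P) : selQ W ℓ Z (fun m => ¬P m) = (selQ W ℓ Z P)ᶜ :=
  selQ_ext (P := fun m => ¬P m) hl hZ (fun _ _ e a b => a (hP _ _ e.symm b)) fun _ _ a =>
    not_congr (mem_selQ hl.wd (fun _ b => (hZ b).1.2.1) hP a)

theorem isClopen_selQ (hP : AM.Ivt W P) (h : ∀ x₀ ∈ Z, ∀ m₀, Rep ℓ univ x₀ m₀ →
    ∀ᶠ x in 𝓝[Z] x₀, ∀ m, Rep ℓ univ x m → (P m₀ ↔ P m)) : IsClopen (selQ W ℓ Z P) := by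
  have k : IsLocallyConstant fun x : Z => Quo.mk (actF W) x ∈ selQ W ℓ Z P :=
    (IsLocallyConstant.iff_eventually_eq _).2 fun x₀ => by
      obtain ⟨m₀, a⟩ := hl.exists_rep_sol (hZ x₀.2)
      filter_upwards [(eventually_nhds_subtype_iff _ _ _).2 (h _ x₀.2 _ a)] with x b
      obtain ⟨m, c⟩ := hl.exists_rep_sol (hZ x.2)
      rw [mem_selQ hl.wd (fun _ b => (hZ b).1.2.1) hP a,
        mem_selQ hl.wd (fun _ b => (hZ b).1.2.1) hP c, b m c]
  exact Holo.Sp.isQuotientMap_mk.isClopen_preimage.1 (by simpa using! k.isClopen_fiber True)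

end Ch

namespace Fam

variable {F : Fam S Λ R J K} [DecidableEq R] {k D : ℕ} {g : ℤ} {d : R → ℤ} {u : ν → J → ℕ}
  {P P' : AM Λ R J ν κ → Prop}

theorem sel_eq : (F.sel P : Set (F.Mod κ k D g d u)) = Ch.selQ _ ℓs _ P := rfl

variable (F k) in
theorem eventually_bigD : ∀ᶠ D in atTop, F.BigD k D :=
  (tendsto_natCast_atTop_atTop (R := ℤ)).eventually (eventually_ge_atTop _)

theorem exists_mk (hD : F.BigD k D) (y : F.Mod κ k D g d u) : ∃ x m, y = Quo.mk _ x ∧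
    Ch.Rep ℓs univ x.1 m := Ch.exists_mk (chart_lat hD) inter_subset_left y

theorem mem_sel (hP : AM.Ivt F.toWt P) {x} {m} (h : Ch.Rep ℓs univ x.1 m) :
    Quo.mk _ x ∈ (F.sel P : Set (F.Mod κ k D g d u)) ↔ P m :=
  Ch.mem_selQ chart_wd' (fun _ b => b.1.1.2.1) hP h

theorem sel_true (hD : F.BigD k D) : (F.sel fun _ => True : Set (F.Mod κ k D g d u)) = univ :=
  Ch.selQ_true (chart_lat hD) inter_subset_left

theorem sel_and (hD : F.BigD k D) (hP : AM.Ivt F.toWt P) (hP' : AM.Ivt F.toWt P') :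
    (F.sel fun m => P m ∧ P' m : Set (F.Mod κ k D g d u)) = F.sel P ∩ F.sel P' :=
  Ch.selQ_and (chart_lat hD) inter_subset_left hP hP'

theorem sel_not (hD : F.BigD k D) (hP : AM.Ivt F.toWt P) :
    (F.sel fun m => ¬P m : Set (F.Mod κ k D g d u)) = (F.sel P)ᶜ :=
  Ch.selQ_not (chart_lat hD) inter_subset_left hP

/-- only the stable solutions of the given type matter -/
theorem sel_congr (hF : F.Inv) (hD : F.BigD k D) (hP : AM.Ivt F.toWt P) (hP' : AM.Ivt F.toWt P')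
    (h : ∀ m, m.Sol F → m.Stable F.θ → m.Typ g d → (P m ↔ P' m)) :
    (F.sel P : Set (F.Mod κ k D g d u)) = F.sel P' :=
  Ch.selQ_congr (chart_lat hD) inter_subset_left hP hP' fun _ a m b => h m
    ((b.mem_solF a.1.1.2.1 hF chart_wd').1 a.1) (rep_stable hD b a.1.1.2.1) (rep_typ b a.1.1.2.1)

theorem Sel.top : F.Sel k g d u fun _ : AM Λ R J ν κ => True :=
  ⟨fun _ _ _ => id, (F.eventually_bigD k).mono fun _ h => by rw [sel_true h]; exact isClopen_univ⟩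

theorem Sel.and (h : F.Sel k g d u P) (h' : F.Sel k g d u P') :
    F.Sel k g d u fun m => P m ∧ P' m :=
  ⟨fun _ _ e a => ⟨h.1 _ _ e a.1, h'.1 _ _ e a.2⟩, by
    filter_upwards [F.eventually_bigD k, h.2, h'.2] with D a b c
    exact sel_and a h.1 h'.1 ▸ b.inter c⟩

theorem Sel.not (h : F.Sel k g d u P) : F.Sel k g d u fun m => ¬P m :=
  ⟨fun _ _ e a b => a (h.1 _ _ e.symm b), by
    filter_upwards [F.eventually_bigD k, h.2] with D a b
    exact sel_not a h.1 ▸ b.compl⟩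

theorem Sel.or (h : F.Sel k g d u P) (h' : F.Sel k g d u P') :
    F.Sel k g d u fun m => P m ∨ P' m := by
  simpa only [or_iff_not_and_not] using (h.not.and h'.not).not

theorem inv_congr (hF : F.Inv) (hP : AM.Ivt F.toWt P) (hP' : AM.Ivt F.toWt P')
    (h : ∀ m, m.Sol F → m.Stable F.θ → m.Typ g d → (P m ↔ P' m)) (fs : List (Fac F.toWt ν κ)) :
    F.inv k g d u P fs = F.inv k g d u P' fs :=
  congrArg Classical.epsilon (funext fun _ => propext (eventually_congr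
    ((F.eventually_bigD k).mono fun _ a => by rw [intg, intg, sel_congr hF a hP hP' h])))

end Fam

end Vale.Agent.P269
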